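import Vale.Agent.P370.H399.Assemble
import Vale.Agent.P370.H728.Ising

/-!
P370: NP-hardness of the continuum electronic ground-state energy problem, for every gap exponent
`c ≥ 1`, already when all nuclei are protons at points with integer coordinates.
-/

namespace Vale.Agent.Results.P370.NPHardProtons

open Vale.Agent.P370

/-- For every `c ≥ 1`, the promise problem of the electronic ground-state energy (YES: `E₀ ≤ a`, NO:
`E₀ ≥ b`, where `b - a ≥ L ^ (-c)`) restricted to protons at integer points is NP-hard. -/
theorem result : ∀ c : ℕ, 1 ≤ c →
    NPHard (Yes c ∩ {I | I.IntegerProtons}) (No c ∩ {I | I.IntegerProtons}) :=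
  fun c hc => H399.npHard_of_ising H728.isingStmt c hc

end Vale.Agent.Results.P370.NPHardProtons
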