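import Vale.Agent.P370.Q.Final
import Vale.Agent.P370.H305.ContCore
import Vale.Agent.P370.H98.DispuP
import Vale.Agent.P370.H855.Grad

/-!
# Problem P370

For every exponent `c ≥ 1`, the ground energy problem of continuum electronic structure (point
nuclei with positive integer charges at rational positions, electrons with spin and their Coulomb
repulsion, thresholds `a < b` with `b - a ≥ 1 / L ^ c`) is QMA-hard under polynomial-time many-one
reductions.
-/

namespace Vale.Agent.Results.P370.QMAHard

open Vale.Agent.P370

theorem result : ∀ c : ℕ, 1 ≤ c → QMAHard (P370.Yes c) (P370.No c) := by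
  intro c hc
  exact Q.qmaHard_of (H305.contCore_of_disp H98.dispuStmt) H855.prog c hc

end Vale.Agent.Results.P370.QMAHard
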